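import Vale.Agent.P286EB.IF
import Vale.Agent.P286EN.Adj
import Vale.Agent.P286EF.Adm

/-!
# Normal forms on the chart `a` of `SL_2` and on the chart `n`
-/

set_option linter.all false

namespace Vale.Agent.P286E27

open Matrix Vale.Agent.P286 Vale.Agent.P286E Vale.Agent.P286EN Vale.Agent.P286EB
open Vale.Agent.P286ER (On IsOb)
open Vale.Agent.P286ET (Ix)

noncomputable section

attribute [-instance] HahnSeries.powerSeriesAlgebra

variable {A : Type} [CommRing A] [Algebra ℂ A] {N : ℕ} {E : Ell}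

theorem tw_zero (e : Rt E) (M : Submodule A (Fin N → Ls A)) : tw e (cm 0) M = M := by
  ext m
  rw [tw, cm_zero, sub_zero, smul_zero, smul_zero]
  simp only [Submodule.mem_inf, Submodule.mem_comap, act_apply, one_mulVec, zero_mulVec]
  exact ⟨fun h => h.1.1, fun h => ⟨⟨h, M.zero_mem⟩, M.zero_mem⟩⟩

/-- Two admissible bases of the same lattice have proportional functions `Θ`. -/
theorem Th_chg {v w : ℕ × Fin N → Fin N → Ls A} (hv : Adm v) (hw : Adm w)
    (h : LinearMap.range (lin v) ≤ LinearMap.range (lin w)) :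
    ∃ u : A, IsUnit u ∧ Th v = u • Th w := by
  refine ⟨_, hv.isUnit_fdet_chg hw h, ?_⟩
  rw [← Th_comp hw.1 (hv.finRank_chg hw h), hw.lin_chg h]
  congr 1
  exact funext fun p => (lin_single v p).symm

/-- The function `Θ` of a gauge transform. -/
theorem Th_map {G : Grp} {a : Matrix (Fin G.N) (Fin G.N) (Ls A)} (hg : InG G a) (ha : IntM a)
    {v w : ℕ × Fin G.N → Fin G.N → Ls A} (hv : Adm v) (hw : Adm w)
    (h : LinearMap.range (lin v) = (LinearMap.range (lin w)).map (act a)) :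
    ∃ u : A, IsUnit u ∧ Th v = u • Th w := by
  obtain ⟨u, hu, e⟩ := Th_chg hv (hw.gau ha ha.adjugate hg.mul_adj hg.adj_mul)
    (by rw [range_gau ha ha.adjugate hg.adj_mul, h])
  exact ⟨u, hu, e.trans (congrArg (u • ·) (Th_act ha ha.adjugate hg.mul_adj hg.det hw.1))⟩

theorem fh_smul (u x : A) : fh E (u • (xs A - HahnSeries.C x)) = -(u ^ 3 * fv E x) := by
  have h0 : (u • (xs A - HahnSeries.C x) : Ls A).coeff 0 = -(u * x) := by
    rw [HahnSeries.coeff_smul, HahnSeries.coeff_sub, xs,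
      HahnSeries.coeff_single_of_ne (by norm_num), HahnSeries.C_apply,
      HahnSeries.coeff_single_same, zero_sub, smul_eq_mul, mul_neg]
  have h2 : (u • (xs A - HahnSeries.C x) : Ls A).coeff (-2) = u := by
    rw [HahnSeries.coeff_smul, HahnSeries.coeff_sub, xs, HahnSeries.coeff_single_same,
      HahnSeries.C_apply, HahnSeries.coeff_single_of_ne (by norm_num), sub_zero, smul_eq_mul,
      mul_one]
  rw [fh, h0, h2, fv]
  ring

/-- The normal form on the intersection of the charts. -/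
theorem nfon {G : Grp} (hG : G = SL2 ∨ G = SO3) (hF : FAMM) (h : NFO G .a) : NFO G .n := by
  intro E e A _ _ _ v M T hM hv hr hu
  have hu' : IsUnit ((Th v).coeff (-2) * fh E (Th v)) := hu
  obtain ⟨a, x, ξ, π, hg, ha, hp, hm⟩ := h E e A v M T hM hv hr (isUnit_of_mul_isUnit_left hu')
  obtain ⟨-, -, -, -, -, -, ⟨w, u, hw, hw', ht⟩, -⟩ := hF E e G hG A .a x ξ π hp
  obtain ⟨c, -, hc⟩ := Th_map hg ha hv hw (by rw [hr, hw', hm])
  have h1 : fh E (Th v) = -((c * u) ^ 3 * fv E x) := by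
    rw [hc, ht, smul_smul]
    exact fh_smul _ x
  have h2 : IsUnit (fv E x) := by
    have h3 := isUnit_of_mul_isUnit_right hu'
    rw [h1] at h3
    exact isUnit_of_mul_isUnit_right ((IsUnit.neg_iff _).1 h3)
  exact ⟨a, x, ξ, π, hg, ha, ⟨hp.sq, nofun, fun _ => h2, fun _ => hp.pr nofun⟩, hm⟩

theorem scalar_of {X : Matrix (Fin 2) (Fin 2) A}
    (h : Xᵀ * F2.map (algebraMap ℂ A) = F2.map (algebraMap ℂ A) * X) : X = X 0 0 • 1 := by
  have h00 := congrFun (congrFun h 0) 0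
  have h01 := congrFun (congrFun h 0) 1
  have h11 := congrFun (congrFun h 1) 1
  simp [F2, Matrix.mul_apply, Fin.sum_univ_two] at h00 h01 h11
  have e1 : X 1 0 = 0 := (unit_two (A := A)).mul_right_eq_zero.1 (by linear_combination -h00)
  have e2 : X 0 1 = 0 := (unit_two (A := A)).mul_right_eq_zero.1 (by linear_combination h11)
  ext i j
  fin_cases i <;> fin_cases j <;> simp [e1, e2, h01]

theorem ht2_sq (ξ : Fin 3 → A) : y2 ξ * y2 ξ = (ξ ⬝ᵥ ξ) • 1 := by
  have hI := iota_I (algebraMap ℂ A)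
  have e : y2 ξ = !![ξ 2, ξ 0 - algebraMap ℂ A Complex.I * ξ 1;
      ξ 0 + algebraMap ℂ A Complex.I * ξ 1, -ξ 2] := by
    change ∑ i, ξ i • (b2 i).map (algebraMap ℂ A) = _
    ext i j
    fin_cases i <;> fin_cases j <;> simp [b2, Fin.sum_univ_three, Matrix.sum_apply] <;> ring
  rw [e]
  ext i j
  fin_cases i <;> fin_cases j <;>
    simp [Matrix.mul_apply, Fin.sum_univ_two, dotProduct, Fin.sum_univ_three]
  · linear_combination (-ξ 1 ^ 2) * hI
  · ring
  · ring
  · linear_combination (-ξ 1 ^ 2) * hI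

/-- The normal form on the chart `a` of `SL_2`. -/
theorem nfo2a : NFO SL2 .a := by
  intro E e A _ _ _ v M T hM hv hr hu
  have h1 : IsUnit (fdet (pol 2 A ∘ₗ lin v)) := by
    rw [← Th_lead (N := 2) hv.1]
    exact hu
  have hc : Cpl M := hr ▸ hv.isUnit_iff.1 h1
  have hF : IsUnit (SL2.F.map (algebraMap ℂ A)).det := by
    rw [← RingHom.mapMatrix_apply, ← RingHom.map_det, ok_SL2.det, map_one]
    exact isUnit_one
  obtain ⟨a, X, Y, ha, hp, hm, hX, hY, hf, hd⟩ := nf_frm hF (E := E) hM.reg hc hM.form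
  obtain ⟨x, rfl⟩ : ∃ x : A, X = x • 1 := ⟨_, scalar_of hX⟩
  obtain ⟨ξ, rfl⟩ : ∃ ξ : Fin 3 → A, Y = SL2.ht ξ :=
    ⟨_, ok_SL2.span A (algebraMap ℂ A) Y (by rw [hY, neg_add_cancel])⟩
  have hs : ξ ⬝ᵥ ξ = fv E x := by
    have h2 : (ξ ⬝ᵥ ξ) • (1 : Matrix (Fin 2) (Fin 2) A) = (x • 1) ^ 3 + E.a • x • 1 + E.b • 1 :=
      (ht2_sq ξ).symm.trans hp.eqn
    have h3 := congrFun (congrFun h2 0) 0
    rw [smul_pow, one_pow] at h3
    simp only [Matrix.add_apply, Matrix.smul_apply, Matrix.one_apply_eq, smul_eq_mul,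
      mul_one] at h3
    rw [h3, fv, Algebra.smul_def, Algebra.smul_def, mul_one]
  refine ⟨a, x, ξ, 0, ⟨hd, hf⟩, ha.ord, ⟨hs, nofun, nofun, fun _ => ⟨by simp, ?_, fun _ _ _ _ => rfl,
    Matrix.mul_zero _⟩⟩, ?_⟩
  · rw [trace_zero]
    exact (sub_self (2 : A)).symm
  · rw [hm, FM, tw_zero]
    congr 2
    change _ = ea e A • (0 : Matrix (Fin 2) (Fin 2) A) + x • (1 - 0)
    rw [smul_zero, zero_add, sub_zero]
    rfl

theorem nfo2n (hF : FAMM) : NFO SL2 .n := nfon (Or.inl rfl) hF nfo2a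

theorem nfo3n (hF : FAMM) (h : NFO SO3 .a) : NFO SO3 .n := nfon (Or.inr rfl) hF h

end

end Vale.Agent.P286E27
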